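import Vale.Agent.P110.Kronecker

namespace Vale.Agent.Results.P110.KroneckerProducts

open Finset Vale.Agent.P110

/-- Kronecker products of sign sequences.  Let `α ∈ {±1}^a`, `β ∈ {±1}^b` with `a, b ≥ 2`, and let
`P(z) = ∑_{i<a} ∑_{j<b} α_i β_j z^(i + a j)`, a Littlewood polynomial of length `N = a b`.
If `(1-c) √N ≤ |P(z)| ≤ (1+c) √N` on the unit circle, then
`((1+c)/(1-c))^2 ≥ 1 + 1/a` and `≥ 1 + 1/b`. -/
theorem result (a b : ℕ) (ha : 2 ≤ a) (hb : 2 ≤ b) (α : Fin a → ℝ) (β : Fin b → ℝ)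
    (hα : ∀ i, α i = 1 ∨ α i = -1) (hβ : ∀ j, β j = 1 ∨ β j = -1) (c : ℝ) (hc0 : 0 ≤ c)
    (hc1 : c < 1)
    (hflat : ∀ z : ℂ, ‖z‖ = 1 →
      (1 - c) * Real.sqrt (a * b) ≤
        ‖∑ i : Fin a, ∑ j : Fin b, ((α i * β j : ℝ) : ℂ) * z ^ ((i : ℕ) + a * (j : ℕ))‖ ∧
      ‖∑ i : Fin a, ∑ j : Fin b, ((α i * β j : ℝ) : ℂ) * z ^ ((i : ℕ) + a * (j : ℕ))‖ ≤
        (1 + c) * Real.sqrt (a * b)) :
    1 + 1 / (a : ℝ) ≤ ((1 + c) / (1 - c)) ^ 2 ∧ 1 + 1 / (b : ℝ) ≤ ((1 + c) / (1 - c)) ^ 2 := by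
  have key : ∀ z : ℂ,
      ∑ i : Fin a, ∑ j : Fin b, ((α i * β j : ℝ) : ℂ) * z ^ ((i : ℕ) + a * (j : ℕ)) =
        lit α z * lit β (z ^ a) := by
    intro z
    unfold lit
    rw [Finset.sum_mul_sum]
    refine Finset.sum_congr rfl fun i _ => Finset.sum_congr rfl fun j _ => ?_
    rw [pow_add, pow_mul]
    push_cast
    ring
  constructor
  · refine kronecker_inner ha (by omega) α β hα hβ c hc0 hc1 fun z hz => ?_
    rw [← key]
    exact hflat z hz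
  · refine kronecker_outer hb (by omega) β α hβ hα c hc0 hc1 fun z hz => ?_
    rw [← key, mul_comm (b : ℝ) (a : ℝ)]
    exact hflat z hz

end Vale.Agent.Results.P110.KroneckerProducts
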